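import Vale.Agent.P066.Lab.KunGc
import Vale.Agent.P066.Lab.HN2

/-!
# Graded versions of the basic facts

The ideals `J0, Jp, Jm, JC` are homogeneous; `Lev, FilR, Fil, Gc, VLev, VBlk` are closed under
homogeneous components; graded form of (K2).
-/

set_option autoImplicit false
set_option linter.unusedSectionVars false

open Finset MvPolynomial

namespace Vale.Agent.P066.Lab.H678

open Vale.Agent.P066.Lab

noncomputable section

variable {S : Type} [Fintype S] [DecidableEq S] {k : Type} [Field k] {a : S → S → ℕ} {θ : S → ℤ}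

/-- homogeneous ideals -/
def HomI (J : Ideal (MvPolynomial S k)) : Prop :=
  ∀ (n : ℕ) (f : MvPolynomial S k), f ∈ J → homogeneousComponent n f ∈ J

theorem homI_span {G : Set (MvPolynomial S k)} (hG : ∀ g ∈ G, ∃ m, g.IsHomogeneous m) :
    HomI (Ideal.span G) := by
  intro n f hf
  induction hf using Submodule.span_induction generalizing n with
  | mem x hx =>
    obtain ⟨m, hm⟩ := hG x hx
    rw [homogeneousComponent_of_mem hm]
    split_ifs
    · exact Ideal.subset_span hx
    · exact Submodule.zero_mem _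
  | zero => rw [map_zero]; exact Submodule.zero_mem _
  | add x y _ _ hx hy => rw [map_add]; exact Submodule.add_mem _ (hx n) (hy n)
  | smul c x _ ih =>
    have h1 : homogeneousComponent n (c • x) =
        ∑ i ∈ range (x.totalDegree + 1), homogeneousComponent n (c * homogeneousComponent i x) := by
      rw [smul_eq_mul]
      conv_lhs => rw [← sum_homogeneousComponent x, mul_sum, map_sum]
    rw [h1]
    refine Submodule.sum_mem _ fun i _ => ?_
    rw [mul_comm, HN.hc_mul k (homogeneousComponent_isHomogeneous i x)]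
    split_ifs
    · exact Ideal.mul_mem_right _ _ (ih i)
    · exact Submodule.zero_mem _

theorem HomI.iSup {ι : Sort*} {J : ι → Ideal (MvPolynomial S k)} (h : ∀ i, HomI (J i)) :
    HomI (⨆ i, J i) := by
  intro n f hf
  refine Submodule.iSup_induction J (motive := fun f => homogeneousComponent n f ∈ ⨆ i, J i)
    hf ?_ ?_ ?_
  · intro i x hx
    exact Submodule.mem_iSup_of_mem i (h i n x hx)
  · rw [map_zero]; exact Submodule.zero_mem _
  · intro x y hx hy
    rw [map_add]; exact Submodule.add_mem _ hx hy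

theorem HomI.sup {J J' : Ideal (MvPolynomial S k)} (h : HomI J) (h' : HomI J') :
    HomI (J ⊔ J') := by
  intro n f hf
  obtain ⟨y, hy, z, hz, rfl⟩ := Submodule.mem_sup.1 hf
  rw [map_add]
  exact Submodule.add_mem_sup (h n y hy) (h' n z hz)

theorem QP_isHomogeneous (E : Finset (S × S)) :
    (QP k a E).IsHomogeneous (∑ p ∈ E, a p.1 p.2) := HN.QP_hom k a E

theorem J0_homI (B : Finset S) : HomI (J0 k a θ B) := by
  apply homI_span
  rintro g ⟨X, _, _, rfl⟩
  exact ⟨_, QP_isHomogeneous _⟩

theorem Jp_homI (B : Finset S) : HomI (Jp k a θ B) := by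
  apply homI_span
  rintro g ⟨X, _, _, _, rfl⟩
  exact ⟨_, QP_isHomogeneous _⟩

theorem Jm_homI (B : Finset S) : HomI (Jm k a θ B) := by
  apply homI_span
  rintro g ⟨X, _, _, _, rfl⟩
  exact ⟨_, QP_isHomogeneous _⟩

theorem JC_homI (c : S → ℕ) : HomI (JC k a θ c) := HomI.iSup fun _ => J0_homI _

/-! ### the translation homomorphism -/

/-- total degree `m` in the variables of `S` and the `U_i` together -/
def BiHom (m : ℕ) (P : MvPolynomial ℕ (MvPolynomial S k)) : Prop :=
  ∀ (α : ℕ →₀ ℕ) (β : S →₀ ℕ), coeff β (coeff α P) ≠ 0 → β.degree + α.degree = m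

theorem BiHom.mul {m n : ℕ} {P Q : MvPolynomial ℕ (MvPolynomial S k)} (hP : BiHom m P)
    (hQ : BiHom n Q) : BiHom (m + n) (P * Q) := by
  classical
  intro α β h
  rw [coeff_mul, coeff_sum] at h
  obtain ⟨⟨α1, α2⟩, h1, h2⟩ := exists_ne_zero_of_sum_ne_zero h
  rw [coeff_mul] at h2
  obtain ⟨⟨β1, β2⟩, h3, h4⟩ := exists_ne_zero_of_sum_ne_zero h2
  rw [HasAntidiagonal.mem_antidiagonal] at h1 h3
  dsimp only at h1 h3 h4
  have h5 := hP α1 β1 (left_ne_zero_of_mul h4)
  have h6 := hQ α2 β2 (right_ne_zero_of_mul h4)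
  rw [← h1, ← h3, map_add, map_add]
  omega

theorem BiHom.add {m : ℕ} {P Q : MvPolynomial ℕ (MvPolynomial S k)} (hP : BiHom m P)
    (hQ : BiHom m Q) : BiHom m (P + Q) := by
  intro α β h
  rw [coeff_add, coeff_add] at h
  by_cases h1 : coeff β (coeff α P) = 0
  · rw [h1, zero_add] at h
    exact hQ α β h
  · exact hP α β h1

theorem BiHom.sum {ι : Type*} {m : ℕ} (s : Finset ι) (P : ι → MvPolynomial ℕ (MvPolynomial S k))
    (hP : ∀ i ∈ s, BiHom m (P i)) : BiHom m (∑ i ∈ s, P i) := by
  classical
  induction s using Finset.induction_on with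
  | empty => intro α β h; simp at h
  | insert i s hi ih =>
    rw [sum_insert hi]
    exact (hP i (mem_insert_self _ _)).add (ih fun j hj => hP j (mem_insert_of_mem hj))

theorem biHom_C_C (r : k) : BiHom 0 (C (C r) : MvPolynomial ℕ (MvPolynomial S k)) := by
  classical
  intro α β h
  rw [coeff_C] at h
  split_ifs at h with h1
  · rw [coeff_C] at h
    split_ifs at h with h2
    · rw [← h1, ← h2]; simp
    · exact absurd rfl h
  · simp at h

theorem BiHom.one : BiHom 0 (1 : MvPolynomial ℕ (MvPolynomial S k)) := by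
  have := biHom_C_C (S := S) (1 : k)
  rwa [C_1, C_1] at this

theorem BiHom.pow {m : ℕ} {P : MvPolynomial ℕ (MvPolynomial S k)} (hP : BiHom m P) (n : ℕ) :
    BiHom (m * n) (P ^ n) := by
  induction n with
  | zero => rw [pow_zero, mul_zero]; exact BiHom.one
  | succ n ih => rw [pow_succ, Nat.mul_succ]; exact ih.mul hP

theorem BiHom.prod {ι : Type*} (s : Finset ι) (m : ι → ℕ)
    (P : ι → MvPolynomial ℕ (MvPolynomial S k))
    (hP : ∀ i ∈ s, BiHom (m i) (P i)) : BiHom (∑ i ∈ s, m i) (∏ i ∈ s, P i) := by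
  classical
  induction s using Finset.induction_on with
  | empty => rw [sum_empty, prod_empty]; exact BiHom.one
  | insert i s hi ih =>
    rw [sum_insert hi, prod_insert hi]
    exact (hP i (mem_insert_self _ _)).mul (ih fun j hj => hP j (mem_insert_of_mem hj))

theorem biHom_Tc_X (c : S → ℕ) (s : S) : BiHom 1 (Tc k c (X s)) := by
  classical
  rw [Tc_X]
  apply BiHom.add
  · intro α β h
    rw [coeff_C] at h
    split_ifs at h with h1
    · rw [coeff_X] at h
      split_ifs at h with h2
      · rw [← h1, ← h2]; simp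
      · exact absurd rfl h
    · simp at h
  · intro α β h
    rw [coeff_X] at h
    split_ifs at h with h1
    · rw [coeff_one] at h
      split_ifs at h with h2
      · rw [← h1, ← h2]; simp
      · exact absurd rfl h
    · simp at h

theorem biHom_Tc (c : S → ℕ) {m : ℕ} {f : MvPolynomial S k} (hf : f.IsHomogeneous m) :
    BiHom m (Tc k c f) := by
  rw [f.as_sum, map_sum]
  apply BiHom.sum
  intro β hβ
  have hdeg : β.degree = m := by
    have := hf (mem_support_iff.1 hβ)
    rw [← this, Finsupp.degree_eq_weight_one]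
    rfl
  rw [monomial_eq, map_mul, Finsupp.prod, map_prod]
  have h1 : BiHom 0 (Tc k c (C (coeff β f))) := by
    rw [← algebraMap_eq, AlgHom.commutes]
    exact biHom_C_C _
  have h2 : BiHom (∑ s ∈ β.support, β s) (∏ s ∈ β.support, Tc k c (X s ^ β s)) := by
    apply BiHom.prod
    intro s _
    rw [map_pow]
    have := (biHom_Tc_X (k := k) c s).pow (β s)
    rwa [one_mul] at this
  have h3 := h1.mul h2
  rw [zero_add] at h3
  rw [← hdeg]
  exact h3

theorem BiHom.hc {m : ℕ} {P : MvPolynomial ℕ (MvPolynomial S k)} (hP : BiHom m P)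
    (α : ℕ →₀ ℕ) (n : ℕ) :
    homogeneousComponent n (coeff α P) = if n + α.degree = m then coeff α P else 0 := by
  ext β
  rw [coeff_homogeneousComponent]
  split_ifs with h1 h2 h2
  · rfl
  · rw [coeff_zero]
    by_contra h
    have h3 := hP α β h
    omega
  · by_contra h
    have h3 := hP α β (Ne.symm h)
    omega
  · rw [coeff_zero]

theorem BiHom.coeff_isHomogeneous {m n : ℕ} {P : MvPolynomial ℕ (MvPolynomial S k)}
    (hP : BiHom m P) (α : ℕ →₀ ℕ) (hn : n + α.degree = m) : (coeff α P).IsHomogeneous n := by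
  have := hP.hc α n
  rw [if_pos hn] at this
  rw [← this]
  exact homogeneousComponent_isHomogeneous _ _

theorem BiHom.coeff_eq_zero {m : ℕ} {P : MvPolynomial ℕ (MvPolynomial S k)}
    (hP : BiHom m P) (α : ℕ →₀ ℕ) (hn : m < α.degree) : coeff α P = 0 := by
  ext β
  rw [coeff_zero]
  by_contra h
  have := hP α β h
  omega

theorem hc_coeff_Tc (c : S → ℕ) (f : MvPolynomial S k) (α : ℕ →₀ ℕ) (n : ℕ) :
    homogeneousComponent n (coeff α (Tc k c f)) =
      coeff α (Tc k c (homogeneousComponent (n + α.degree) f)) := by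
  conv_lhs => rw [← sum_homogeneousComponent f, map_sum, coeff_sum, map_sum]
  have h1 : ∀ i, homogeneousComponent n (coeff α (Tc k c (homogeneousComponent i f))) =
      if n + α.degree = i then coeff α (Tc k c (homogeneousComponent i f)) else 0 := fun i =>
    (biHom_Tc c (homogeneousComponent_isHomogeneous i f)).hc α n
  simp only [h1]
  rw [Finset.sum_ite_eq]
  split_ifs with h
  · rfl
  · rw [homogeneousComponent_eq_zero _ _ (by rw [mem_range] at h; omega), map_zero, coeff_zero]

theorem coeff_Tc_hc (c : S → ℕ) (f : MvPolynomial S k) (α : ℕ →₀ ℕ) (n : ℕ) :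
    coeff α (Tc k c (homogeneousComponent n f)) =
      if α.degree ≤ n then homogeneousComponent (n - α.degree) (coeff α (Tc k c f)) else 0 := by
  split_ifs with h
  · rw [hc_coeff_Tc, Nat.sub_add_cancel h]
  · exact (biHom_Tc c (homogeneousComponent_isHomogeneous n f)).coeff_eq_zero α (by omega)

theorem Lev.hc {c : S → ℕ} {N : ℤ} {f : MvPolynomial S k} (hf : Lev k a θ c N f) (n : ℕ) :
    Lev k a θ c N (homogeneousComponent n f) := by
  intro α hα
  rw [coeff_Tc_hc]
  split_ifs
  · exact JC_homI c _ _ (hf α hα)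
  · exact Submodule.zero_mem _

theorem FilR.hc {c : S → ℕ} {N : ℤ} {f : MvPolynomial S k} (hf : FilR k a θ c N f) (n : ℕ) :
    FilR k a θ c N (homogeneousComponent n f) := fun m h1 h2 => Lev.hc (hf m h1 h2) n

theorem Fil.hc {N : ℤ} {f : MvPolynomial S k} (hf : Fil k a θ N f) (n : ℕ) :
    Fil k a θ N (homogeneousComponent n f) := fun m h1 => Lev.hc (hf m h1) n

theorem Gc.hc {c : S → ℕ} {f : MvPolynomial S k} (hf : Gc k a θ c f) (n : ℕ) :
    Gc k a θ c (homogeneousComponent n f) := FilR.hc hf n

theorem VLev.hc {c : S → ℕ} {i : ℕ} {f : MvPolynomial S k} (hf : VLev k a θ c i f) (n : ℕ) :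
    VLev k a θ c i (homogeneousComponent n f) := fun m h1 h2 h3 => Lev.hc (hf m h1 h2 h3) n

theorem supported_hc {B : Set S} {f : MvPolynomial S k} (hf : f ∈ supported k B) (n : ℕ) :
    homogeneousComponent n f ∈ supported k B := by
  rw [mem_supported] at hf ⊢
  intro s hs
  apply hf
  rw [mem_coe, mem_vars_iff_mem_support] at hs ⊢
  obtain ⟨m, hm, hms⟩ := hs
  refine ⟨m, ?_, hms⟩
  rw [mem_support_iff, coeff_homogeneousComponent] at hm
  rw [mem_support_iff]
  split_ifs at hm with h
  · exact hm
  · exact absurd rfl hm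

theorem VBlk.hc {c : S → ℕ} {i : ℕ} {f : MvPolynomial S k} (hf : VBlk k a θ c i f) (n : ℕ) :
    VBlk k a θ c i (homogeneousComponent n f) := ⟨supported_hc hf.1 n, VLev.hc hf.2 n⟩

/-! ### homogeneous factors -/

theorem KC_isHomogeneous (c : S → ℕ) : (KC k a c).IsHomogeneous
    (∑ p ∈ univ.filter (fun p : S × S => c p.1 < c p.2), a p.1 p.2) := QP_isHomogeneous _

theorem uk_isHomogeneous (c : S → ℕ) (i : ℕ) : (uk k c i).IsHomogeneous 1 := by
  unfold uk
  have h := (isHomogeneous_C S ((blk c i).card : k)⁻¹).mul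
    (IsHomogeneous.sum (blk c i) (fun s => (X s : MvPolynomial S k)) 1
      fun s _ => isHomogeneous_X k s)
  rwa [zero_add] at h

/-- (K2), graded form -/
theorem exists_span_of_Gc_hom {c : S → ℕ} {f : MvPolynomial S k} (hf : Gc k a θ c f) {n : ℕ}
    (hn : f.IsHomogeneous n) :
    ∃ g ∈ Submodule.span k {h | ∃ (v : Col c → MvPolynomial S k) (e : Col c → ℕ),
        (∀ i : Col c, VBlk k a θ c i (v i) ∧ (v i).IsHomogeneous (e i)) ∧ ∑ i, e i = n ∧
          h = ∏ i, v i}, f - g ∈ JC k a θ c ∧ g.IsHomogeneous n := by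
  classical
  obtain ⟨g, hg, hg'⟩ := exists_span_of_Gc hf
  refine ⟨homogeneousComponent n g, ?_, ?_, homogeneousComponent_isHomogeneous _ _⟩
  · clear hg'
    induction hg using Submodule.span_induction with
    | mem x hx =>
      obtain ⟨v, hv, rfl⟩ := hx
      have h1 : ∏ i, v i = ∑ p ∈ Fintype.piFinset fun i => range ((v i).totalDegree + 1),
          ∏ i, homogeneousComponent (p i) (v i) := by
        rw [← Finset.prod_univ_sum (fun i => range ((v i).totalDegree + 1))
          (fun i j => homogeneousComponent j (v i))]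
        exact Finset.prod_congr rfl fun i _ => (sum_homogeneousComponent (v i)).symm
      rw [h1, map_sum]
      refine Submodule.sum_mem _ fun p _ => ?_
      have h2 : (∏ i, homogeneousComponent (p i) (v i)).IsHomogeneous (∑ i, p i) :=
        IsHomogeneous.prod _ _ _ fun i _ => homogeneousComponent_isHomogeneous _ _
      rw [homogeneousComponent_of_mem h2]
      split_ifs with h3
      · exact Submodule.subset_span ⟨fun i => homogeneousComponent (p i) (v i), p,
          fun i => ⟨VBlk.hc (hv i) _, homogeneousComponent_isHomogeneous _ _⟩, h3.symm, rfl⟩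
      · exact Submodule.zero_mem _
    | zero => rw [map_zero]; exact Submodule.zero_mem _
    | add x y _ _ hx hy => rw [map_add]; exact Submodule.add_mem _ hx hy
    | smul r x _ hx => rw [map_smul]; exact Submodule.smul_mem _ _ hx
  · have h1 := JC_homI c n _ hg'
    rwa [map_sub, homogeneousComponent_of_mem hn, if_pos rfl] at h1

end

end Vale.Agent.P066.Lab.H678
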