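import Vale.Agent.P066.Lab.H678.FinGrowth

/-!
# Finiteness of `V_S` (block FIN of the local theorem), whole set

* `fin_V` : for the whole set: `Gc (const)` (= representatives of `V_S`) lives in bounded degrees
  modulo `JC (const) = J0 univ`.
-/

set_option autoImplicit false
set_option linter.unusedSectionVars false

open Finset MvPolynomial

namespace Vale.Agent.P066.Lab.Fin678

open Vale.Agent.P066.Lab Vale.Agent.P066.Lab.Fin180

noncomputable section

variable {S : Type} [Fintype S] [DecidableEq S] {k : Type} [Field k] {a : S → S → ℕ} {θ : S → ℤ}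
variable {s0 : S} {B : Finset S}

/-! ### the whole set, in terms of `Gc` -/

theorem pderiv_Tc (c : S → ℕ) (i : ℕ) (f : MvPolynomial S k) :
    pderiv i (Tc k c f) = Tc k c (dB (blk c i) f) := by
  induction f using MvPolynomial.induction_on with
  | C q =>
    have h : Tc k c (C q) = C (C q) := by
      rw [← algebraMap_eq, AlgHom.commutes]
      rfl
    rw [h, pderiv_C]
    have h2 : dB (blk c i) (C q) = 0 := by
      rw [← algebraMap_eq]; exact Derivation.map_algebraMap _ _
    rw [h2, map_zero]
  | add p q hp hq => rw [map_add, map_add, map_add, map_add, hp, hq]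
  | mul_X p s hp =>
    rw [map_mul, pderiv_mul, hp, Derivation.leibniz, dB_X, Tc_X, map_add, pderiv_C]
    simp only [smul_eq_mul, map_mul, map_add, Tc_X]
    by_cases h : c s = i
    · rw [if_pos (mem_blk.2 h), h, pderiv_X_self, map_one]
      ring
    · rw [if_neg (fun h' => h (mem_blk.1 h')), pderiv_X_of_ne h, map_zero]
      ring

theorem coeff_iter_pderiv {R : Type*} [CommRing R] (i : ℕ) (g : MvPolynomial ℕ R) (j : ℕ)
    (m : ℕ →₀ ℕ) (hm : m i = 0) :
    coeff m ((pderiv i)^[j] g) = (j.factorial : R) * coeff (m + Finsupp.single i j) g := by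
  induction j generalizing g with
  | zero => simp
  | succ j ih =>
    rw [Function.iterate_succ_apply, ih, coeff_pderiv, add_assoc, ← Finsupp.single_add]
    simp only [Finsupp.add_apply, hm, Finsupp.single_eq_same, zero_add, Nat.factorial_succ]
    push_cast
    ring

theorem iter_dB_eq (c : S → ℕ) (i j : ℕ) (f : MvPolynomial S k) :
    (dB (blk c i))^[j] f = (j.factorial : MvPolynomial S k) *
      coeff (Finsupp.single i j) (Tc k c f) := by
  have h : Tc k c ((dB (blk c i))^[j] f) = (pderiv i)^[j] (Tc k c f) := by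
    induction j generalizing f with
    | zero => rfl
    | succ j ih => rw [Function.iterate_succ_apply, Function.iterate_succ_apply, pderiv_Tc, ih]
  rw [← coeff_zero_Tc c ((dB (blk c i))^[j] f), h, coeff_iter_pderiv i _ j 0 rfl, zero_add]

theorem blk_const (n i : ℕ) : blk (fun _ : S => n) i = if n = i then univ else ∅ := by
  ext s
  by_cases h : n = i <;> simp [h]

theorem J0_empty : J0 k a θ ∅ = ⊥ := by
  unfold J0
  rw [Ideal.span_eq_bot]
  rintro f ⟨X, hX, h, rfl⟩
  rw [subset_empty] at hX
  subst hX
  simp [wS] at h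

theorem JC_const : JC k a θ (fun _ => 0) = J0 k a θ univ := by
  unfold JC
  apply le_antisymm
  · apply iSup_le
    intro i
    rw [blk_const]
    split_ifs
    · exact le_rfl
    · rw [J0_empty]; exact bot_le
  · have := le_iSup (fun i => J0 k a θ (blk (fun _ : S => 0) i)) 0
    simpa [blk_const] using this

theorem nb_const [Nonempty S] : nb (fun _ : S => 0) = 1 := by
  unfold nb
  rw [image_const univ_nonempty, card_singleton]
  rfl

theorem CC_const : CC a (fun _ : S => 0) = 0 := by
  unfold CC
  simp

/-- the two-block colouring `{X, S \ X}` -/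
def col2 (X : Finset S) : S → ℕ := fun s => if s ∈ X then 0 else 1

theorem blk_col2_zero (X : Finset S) : blk (col2 X) 0 = X := by
  ext s
  by_cases h : s ∈ X <;> simp [col2, h]

theorem blk_col2_one (X : Finset S) : blk (col2 X) 1 = univ \ X := by
  ext s
  by_cases h : s ∈ X <;> simp [col2, h]

theorem blk_col2_of (X : Finset S) {i : ℕ} (h0 : i ≠ 0) (h1 : i ≠ 1) : blk (col2 X) i = ∅ := by
  ext s
  by_cases h : s ∈ X <;> simp [col2, h, h0.symm, h1.symm]

theorem JC_col2 (X : Finset S) : JC k a θ (col2 X) = J0 k a θ X ⊔ J0 k a θ (univ \ X) := by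
  unfold JC
  apply le_antisymm
  · apply iSup_le
    intro i
    by_cases h0 : i = 0
    · rw [h0, blk_col2_zero]; exact le_sup_left
    by_cases h1 : i = 1
    · rw [h1, blk_col2_one]; exact le_sup_right
    rw [blk_col2_of X h0 h1, J0_empty]; exact bot_le
  · apply sup_le
    · have := le_iSup (fun i => J0 k a θ (blk (col2 X) i)) 0
      simpa [blk_col2_zero] using this
    · have := le_iSup (fun i => J0 k a θ (blk (col2 X) i)) 1
      simpa [blk_col2_one] using this

theorem nb_col2_le (X : Finset S) : nb (col2 X) ≤ 2 := by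
  unfold nb
  have h : univ.image (col2 X) ⊆ {0, 1} := by
    intro i hi
    rw [mem_image] at hi
    obtain ⟨s, -, rfl⟩ := hi
    by_cases h : s ∈ X <;> simp [col2, h]
  have := card_le_card h
  have h2 : ({0, 1} : Finset ℕ).card = 2 := rfl
  omega

theorem nb_col2 {X : Finset S} (hX : X.Nonempty) (hX' : (univ \ X).Nonempty) :
    nb (col2 X) = 2 := by
  unfold nb
  have h : univ.image (col2 X) = {0, 1} := by
    apply Finset.Subset.antisymm
    · intro i hi
      rw [mem_image] at hi
      obtain ⟨s, -, rfl⟩ := hi
      by_cases h : s ∈ X <;> simp [col2, h]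
    · intro i hi
      rw [mem_insert, mem_singleton] at hi
      rw [mem_image]
      rcases hi with rfl | rfl
      · obtain ⟨s, hs⟩ := hX
        exact ⟨s, mem_univ _, by simp [col2, hs]⟩
      · obtain ⟨s, hs⟩ := hX'
        rw [mem_sdiff] at hs
        exact ⟨s, mem_univ _, by simp [col2, hs.2]⟩
  rw [h]
  rfl

theorem CC_col2 (X : Finset S) :
    CC a (col2 X) = ((∑ p ∈ X ×ˢ (univ \ X), a p.1 p.2 : ℕ) : ℤ) := by
  unfold CC
  push_cast
  refine sum_congr ?_ fun _ _ => rfl
  ext ⟨s, t⟩
  rw [mem_filter, mem_product, mem_sdiff]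
  simp only [mem_univ, true_and, col2]
  by_cases h1 : s ∈ X <;> by_cases h2 : t ∈ X <;> simp [h1, h2]

/-- **FIN**: the representatives of `V_S` live in bounded degrees modulo `J_S` -/
theorem fin_V [CharZero k] (hθ : wS θ (univ : Finset S) = 0) :
    ∃ D0 : ℕ, ∀ (n : ℕ) (f : MvPolynomial S k), D0 ≤ n → f.IsHomogeneous n →
      Gc k a θ (fun _ => 0) f → f ∈ JC k a θ (fun _ => 0) := by
  classical
  rcases isEmpty_or_nonempty S with hS | hS
  · refine ⟨1, fun n f hn hf _ => ?_⟩
    have h1 : f = C (coeff 0 f) := by
      ext m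
      have : m = 0 := by ext s; exact (hS.false s).elim
      subst this
      simp
    have h2 : coeff 0 f = 0 := by
      by_contra h
      have := hf h
      simp at this
      omega
    rw [h1, h2, C_0]
    exact Submodule.zero_mem _
  · obtain ⟨s0⟩ := hS
    have : Nonempty S := ⟨s0⟩
    obtain ⟨D0, h0⟩ := fin_block (k := k) (a := a) (mem_univ s0) hθ
    refine ⟨D0, fun n f hn hf hG => ?_⟩
    rw [JC_const]
    unfold Gc at hG
    rw [nb_const, CC_const] at hG
    have hcancel : ∀ (j : ℕ) (x : MvPolynomial S k) (I : Ideal (MvPolynomial S k)), x ∈ I →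
        (j.factorial : MvPolynomial S k) * x ∈ I := fun j x I hx => I.mul_mem_left _ hx
    refine h0 n f hn hf (subset_univ _) ?_ ?_
    · have h1 := hG (fun _ => 0) (fun i => by rw [blk_const]; split_ifs; exacts [hθ, rfl])
        (Ref.refl _) (Finsupp.single 0 1) (by
          rw [nb_const, CC_const, Finsupp.degree_single]; norm_num)
      have h2 := iter_dB_eq (k := k) (fun _ : S => 0) 0 1 f
      rw [Function.iterate_one, blk_const, if_pos rfl] at h2
      rw [h2, ← JC_const]
      exact hcancel _ _ _ h1
    · intro X _ hXth hXne hs0X m hm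
      have hX' : (univ \ X).Nonempty := ⟨s0, by simp [hs0X]⟩
      have hXth' : wS θ (univ \ X) = 0 := by
        have := wS_split (θ := θ) X univ
        rw [univ_inter] at this
        omega
      have h1 := hG (col2 X) (fun i => by
          by_cases h0 : i = 0
          · rw [h0, blk_col2_zero]; exact hXth
          by_cases h1 : i = 1
          · rw [h1, blk_col2_one]; exact hXth'
          rw [blk_col2_of X h0 h1]; rfl)
        (fun _ _ _ => rfl) (Finsupp.single 1 m) (by
          rw [nb_col2 hXne hX', CC_col2, Finsupp.degree_single]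
          have : ((∑ p ∈ X ×ˢ (univ \ X), a p.1 p.2 : ℕ) : ℤ) ≤ m := by exact_mod_cast hm
          linarith)
      rw [JC_col2] at h1
      have h2 := iter_dB_eq (k := k) (col2 X) 1 m f
      rw [blk_col2_one] at h2
      rw [h2]
      exact hcancel _ _ _ h1

end

end Vale.Agent.P066.Lab.Fin678

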