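import Vale.Agent.P066.Lab.LSW.W0

/-!
# Hilbert function from a homogeneous basis
-/

set_option autoImplicit false
set_option linter.unusedSectionVars false

open Finset MvPolynomial

namespace Vale.Agent.P066.Lab.H678

open Vale.Agent.P066.Lab Vale.Agent.P066.Lab.LSW
open Vale.Agent.P066.Theta.H422 (Alt TP mem_TP mem_Alt)

noncomputable section

variable {S : Type} [Fintype S] [DecidableEq S] {k : Type} [Field k]
variable {ι : Type} [Fintype ι] [DecidableEq ι] {ty : S → ι}

/-- independence modulo an ideal, in elementary form -/
theorem linearIndependent_mk_iff {J : Ideal (MvPolynomial S k)} {I : Type*}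
    (g : I → MvPolynomial S k) :
    (LinearIndependent k fun i => Ideal.Quotient.mk J (g i)) ↔
      ∀ c : I →₀ k, (c.sum fun i r => r • g i) ∈ J → c = 0 := by
  rw [linearIndependent_iff]
  refine forall_congr' fun c => ?_
  have h : Finsupp.linearCombination k (fun i => Ideal.Quotient.mk J (g i)) c =
      Ideal.Quotient.mk J (c.sum fun i r => r • g i) := by
    rw [Finsupp.linearCombination_apply, Finsupp.sum, Finsupp.sum, map_sum]
    rfl
  rw [h, Ideal.Quotient.eq_zero_iff_mem]

theorem linearIndependent_mkQ_iff {J : Ideal (MvPolynomial S k)} {I : Type*}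
    (g : I → MvPolynomial S k) :
    (LinearIndependent k fun i => (J.restrictScalars k).mkQ (g i)) ↔
      ∀ c : I →₀ k, (c.sum fun i r => r • g i) ∈ J → c = 0 := by
  rw [linearIndependent_iff]
  refine forall_congr' fun c => ?_
  have h : Finsupp.linearCombination k (fun i => (J.restrictScalars k).mkQ (g i)) c =
      (J.restrictScalars k).mkQ (c.sum fun i r => r • g i) := by
    rw [Finsupp.linearCombination_apply, Finsupp.sum, Finsupp.sum, map_sum]
    simp only [map_smul]
  rw [h, ← LinearMap.mem_ker, Submodule.ker_mkQ, Submodule.restrictScalars_mem]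

theorem hQ_eq_card {J : Ideal (MvPolynomial S k)} (hJ : HomI J) {I : Type}
    (g : I → MvPolynomial S k) (dl : I → ℕ) (halt : ∀ i, g i ∈ Alt k ty)
    (hhom : ∀ i, (g i).IsHomogeneous (dl i))
    (hind : LinearIndependent k fun i => Ideal.Quotient.mk J (g i))
    (hspan : ∀ f ∈ Alt k ty, ∃ h ∈ Submodule.span k (Set.range g), f - h ∈ J) (m : ℕ) :
    hQ k ty J m = Nat.card {i // dl i = m} := by
  classical
  have hli : LinearIndependent k fun i : {i // dl i = m} => (J.restrictScalars k).mkQ (g i) := by
    have h1 : LinearIndependent k fun i => (J.restrictScalars k).mkQ (g i) := by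
      rw [linearIndependent_mkQ_iff, ← linearIndependent_mk_iff]
      exact hind
    exact h1.comp _ Subtype.val_injective
  have hmap : (AltH k ty m).map (J.restrictScalars k).mkQ =
      Submodule.span k (Set.range fun i : {i // dl i = m} => (J.restrictScalars k).mkQ (g i)) := by
    apply le_antisymm
    · rintro _ ⟨f, hf, rfl⟩
      obtain ⟨hf1, hf2⟩ := hf
      obtain ⟨h, hh, hfh⟩ := hspan f hf1
      have hfm : homogeneousComponent m f = f := by
        rw [homogeneousComponent_of_mem hf2, if_pos rfl]
      have h2 : f - homogeneousComponent m h ∈ J := by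
        have := hJ m _ hfh
        rwa [map_sub, hfm] at this
      have h3 : (J.restrictScalars k).mkQ f =
          (J.restrictScalars k).mkQ (homogeneousComponent m h) := by
        rw [← sub_eq_zero, ← map_sub, ← LinearMap.mem_ker, Submodule.ker_mkQ,
          Submodule.restrictScalars_mem]
        exact h2
      rw [h3]
      clear hfh h2 h3
      induction hh using Submodule.span_induction with
      | mem x hx =>
        obtain ⟨i, rfl⟩ := hx
        rw [homogeneousComponent_of_mem (hhom i)]
        split_ifs with hi
        · exact Submodule.subset_span ⟨⟨i, hi.symm⟩, rfl⟩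
        · rw [map_zero]; exact Submodule.zero_mem _
      | zero => rw [map_zero, map_zero]; exact Submodule.zero_mem _
      | add x y _ _ hx hy => rw [map_add, map_add]; exact Submodule.add_mem _ hx hy
      | smul r x _ hx => rw [map_smul, map_smul]; exact Submodule.smul_mem _ _ hx
    · rw [Submodule.span_le]
      rintro _ ⟨⟨i, hi⟩, rfl⟩
      exact ⟨g i, ⟨halt i, by rw [← hi]; exact hhom i⟩, rfl⟩
  unfold hQ
  rw [hmap]
  exact Module.finrank_eq_nat_card_basis (Module.Basis.span hli)

end

end Vale.Agent.P066.Lab.H678
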