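import Vale.Agent.P066.Lab.Basic
import Vale.Agent.P066.Lab.H180.FinRad

/-!
# Finiteness of `V_S` (block FIN of the local theorem)

* `mem_J0_of_growth` : an element of the framed ideal `J2` of small growth lies in `J0`;
* `fin_block` : for a block `B` of weight zero, a homogeneous polynomial in the variables of `B`,
  of large degree, translation invariant modulo `J0 B` and of growth `< C` at all `{X, B \ X}`,
  lies in `J0 B`;
-/

set_option autoImplicit false
set_option linter.unusedSectionVars false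

open Finset MvPolynomial

namespace Vale.Agent.P066.Lab.Fin678

open Vale.Agent.P066.Lab Vale.Agent.P066.Lab.Fin180

noncomputable section

/-! ### iterated derivations -/

section Der

variable {k : Type} [Field k] [CharZero k]
variable {A : Type*} [CommRing A] [Algebra k A] (D : Derivation k A A)

theorem iter_mul (l h : A) (hl : D (D l) = 0) (m : ℕ) :
    D^[m + 1] (l * h) = l * D^[m + 1] h + ((m : A) + 1) * (D l * D^[m] h) := by
  induction m generalizing h with
  | zero => simp [Derivation.leibniz, mul_comm]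
  | succ m ih =>
    rw [Function.iterate_succ_apply', ih, map_add, Derivation.leibniz, Derivation.leibniz,
      Derivation.leibniz, hl]
    have h1 : D ((m : A) + 1) = 0 := by
      rw [map_add]
      simp
    rw [h1]
    simp only [smul_eq_mul, Function.iterate_succ_apply']
    push_cast
    ring

theorem iter_mem {I : Ideal A} (hI : ∀ x ∈ I, D x ∈ I) {x : A} (hx : x ∈ I) (m : ℕ) :
    D^[m] x ∈ I := by
  induction m with
  | zero => exact hx
  | succ m ih => rw [Function.iterate_succ_apply']; exact hI _ ih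

theorem iter_add (x y : A) (m : ℕ) : D^[m] (x + y) = D^[m] x + D^[m] y := by
  induction m generalizing x y with
  | zero => rfl
  | succ m ih => rw [Function.iterate_succ_apply, map_add, ih]; rfl

theorem iter_zero (m : ℕ) : D^[m] (0 : A) = 0 := by
  induction m with
  | zero => rfl
  | succ m ih => rw [Function.iterate_succ_apply, map_zero, ih]

/-- `h` has `D`-order exactly `n` modulo `I` -/
def Ord (I : Ideal A) (n : ℕ) (h : A) : Prop := D^[n] h ∉ I ∧ D^[n + 1] h ∈ I

variable {D}

include k in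
theorem natCast_mul_mem {I : Ideal A} (n : ℕ) {x : A} (h : ((n : A) + 1) * x ∈ I) : x ∈ I := by
  have : x = (algebraMap k A ((n : k) + 1)⁻¹) * (((n : A) + 1) * x) := by
    have h2 : ((n : A) + 1) = algebraMap k A ((n : k) + 1) := by simp
    rw [h2, ← mul_assoc, ← map_mul, inv_mul_cancel₀ (Nat.cast_add_one_ne_zero n), map_one, one_mul]
  rw [this]
  exact I.mul_mem_left _ h

theorem Ord.mul {I : Ideal A} (hI : ∀ x ∈ I, D x ∈ I) {n : ℕ} {h l : A} (hn : Ord D I n h)
    (hl : D l = 1) : Ord D I (n + 1) (l * h) := by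
  have hl2 : D (D l) = 0 := by rw [hl]; simp
  constructor
  · rw [iter_mul D l h hl2, hl, one_mul]
    intro hc
    apply hn.1
    apply natCast_mul_mem (k := k) n
    exact (I.add_mem_iff_right (I.mul_mem_left _ hn.2)).1 hc
  · rw [iter_mul D l h hl2, hl, one_mul]
    refine I.add_mem (I.mul_mem_left _ ?_) (I.mul_mem_left _ hn.2)
    rw [Function.iterate_succ_apply']
    exact hI _ hn.2

theorem Ord.pow_mul {I : Ideal A} (hI : ∀ x ∈ I, D x ∈ I) {n : ℕ} {h l : A} (hn : Ord D I n h)
    (hl : D l = 1) (j : ℕ) : Ord D I (n + j) (l ^ j * h) := by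
  induction j with
  | zero => simpa using hn
  | succ j ih =>
    have := ih.mul hI hl
    rw [pow_succ', mul_assoc]
    exact this

theorem Ord.prod_mul {ι : Type*} [DecidableEq ι] {I : Ideal A} (hI : ∀ x ∈ I, D x ∈ I)
    (T : Finset ι) (l : ι → A) (j : ι → ℕ) {n : ℕ} {h : A} (hn : Ord D I n h)
    (hl : ∀ i ∈ T, D (l i) = 1) : Ord D I (n + ∑ i ∈ T, j i) ((∏ i ∈ T, l i ^ j i) * h) := by
  induction T using Finset.induction_on with
  | empty => simpa using hn
  | insert i T hi ih =>
    rw [Finset.prod_insert hi, Finset.sum_insert hi, mul_assoc, add_comm (j i), ← add_assoc]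
    apply Ord.pow_mul hI _ (hl i (Finset.mem_insert_self _ _))
    exact ih fun j hj => hl j (Finset.mem_insert_of_mem hj)

theorem exists_ord {I : Ideal A} {h : A} (h0 : h ∉ I)
    (hN : ∃ N, D^[N] h = 0) : ∃ n, Ord D I n h := by
  classical
  have hex : ∃ N, D^[N] h ∈ I := by
    obtain ⟨N, hN⟩ := hN
    exact ⟨N, by rw [hN]; exact I.zero_mem⟩
  have h1 := Nat.find_spec hex
  have h2 : Nat.find hex ≠ 0 := by
    intro hc
    rw [hc] at h1
    exact h0 h1
  obtain ⟨n, hn⟩ := Nat.exists_eq_succ_of_ne_zero h2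
  refine ⟨n, ?_, ?_⟩
  · exact Nat.find_min hex (by omega)
  · rw [hn] at h1; exact h1

theorem Ord.congr {I : Ideal A} (hI : ∀ x ∈ I, D x ∈ I) {n : ℕ} {h h' : A} (hn : Ord D I n h)
    (hh : h' - h ∈ I) : Ord D I n h' := by
  have hh' : h' = h + (h' - h) := by ring
  constructor
  · rw [hh', iter_add]
    intro hc
    exact hn.1 ((I.add_mem_iff_left (iter_mem D hI hh n)).1 hc)
  · rw [hh', iter_add]
    exact I.add_mem hn.2 (iter_mem D hI hh _)

end Der

variable {S : Type} [Fintype S] [DecidableEq S] {k : Type} [Field k] {a : S → S → ℕ} {θ : S → ℤ}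
variable {s0 : S} {B : Finset S}

theorem dB_nilpotent [CharZero k] (Y : Finset S) (f : MvPolynomial S k) :
    ∃ N, (dB (k := k) Y)^[N] f = 0 := by
  induction f using MvPolynomial.induction_on with
  | C c =>
    refine ⟨1, ?_⟩
    rw [Function.iterate_one]
    exact MvPolynomial.derivation_C _ _
  | add p q hp hq =>
    obtain ⟨N, hN⟩ := hp
    obtain ⟨M, hM⟩ := hq
    refine ⟨N + M, ?_⟩
    rw [iter_add]
    have h1 : (dB Y)^[N + M] p = 0 := by
      rw [add_comm, Function.iterate_add_apply, hN, iter_zero]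
    have h2 : (dB Y)^[N + M] q = 0 := by
      rw [Function.iterate_add_apply, hM, iter_zero]
    rw [h1, h2, add_zero]
  | mul_X p s hp =>
    obtain ⟨N, hN⟩ := hp
    refine ⟨N + 1, ?_⟩
    rw [mul_comm, iter_mul (dB Y) _ _ (by rw [dB_X]; split_ifs <;> simp) N,
      Function.iterate_succ_apply', hN]
    simp

/-! ### stability of the ideals -/

theorem dB_QP {E : Finset (S × S)} {Z : Finset S}
    (h : ∀ p ∈ E, (p.1 ∈ Z ↔ p.2 ∈ Z)) : dB Z (QP k a E) = 0 := by
  unfold QP
  have mulz : ∀ p q : MvPolynomial S k, dB Z p = 0 → dB Z q = 0 → dB Z (p * q) = 0 := by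
    intro p q hp hq
    rw [Derivation.leibniz, hp, hq]; simp
  refine Finset.prod_induction _ (fun p => dB Z p = 0) mulz (by simp) fun p hp => ?_
  rw [Derivation.leibniz_pow, map_sub, dB_X, dB_X]
  have := h p hp
  by_cases h1 : p.1 ∈ Z
  · simp [h1, this.1 h1]
  · simp [h1, mt this.2 h1]

theorem span_stable {D : Derivation k (MvPolynomial S k) (MvPolynomial S k)}
    {G : Set (MvPolynomial S k)} (hG : ∀ g ∈ G, D g = 0) :
    ∀ x ∈ Ideal.span G, D x ∈ Ideal.span G := by
  intro x hx
  induction hx using Submodule.span_induction with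
  | mem x h => rw [hG x h]; exact Submodule.zero_mem _
  | zero => simp
  | add x y _ _ hx hy => rw [map_add]; exact Submodule.add_mem _ hx hy
  | smul c x hx ih =>
    rw [smul_eq_mul, Derivation.leibniz]
    refine Ideal.add_mem _ (Ideal.mul_mem_left _ _ ih) ?_
    rw [smul_eq_mul]
    exact Ideal.mul_mem_right _ _ hx

theorem dB_KX {X Z : Finset S} (hX : X ⊆ B) (h : B ⊆ Z ∨ Disjoint B Z) :
    dB Z (KX k a B X) = 0 := by
  apply dB_QP
  rintro ⟨s, t⟩ hst
  rw [mem_product, mem_sdiff] at hst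
  have h1 := hX hst.1
  have h2 := hst.2.1
  rcases h with h | h
  · exact ⟨fun _ => h h2, fun _ => h h1⟩
  · exact ⟨fun h3 => absurd h3 (Finset.disjoint_left.1 h h1),
      fun h3 => absurd h3 (Finset.disjoint_left.1 h h2)⟩

theorem J0_stable {Z : Finset S} (h : B ⊆ Z ∨ Disjoint B Z) :
    ∀ x ∈ J0 k a θ B, dB Z x ∈ J0 k a θ B := by
  apply span_stable
  rintro g ⟨X, hX, -, rfl⟩
  exact dB_KX hX h

theorem J2_stable {Z : Finset S} (h : B ⊆ Z ∨ Disjoint B Z) :
    ∀ x ∈ J2 k a θ s0 B, dB Z x ∈ J2 k a θ s0 B := by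
  apply span_stable
  rintro g ⟨X, hX, -, rfl⟩
  exact dB_KX hX h

theorem sup_stable {D : Derivation k (MvPolynomial S k) (MvPolynomial S k)}
    {I I' : Ideal (MvPolynomial S k)} (h : ∀ x ∈ I, D x ∈ I) (h' : ∀ x ∈ I', D x ∈ I') :
    ∀ x ∈ I ⊔ I', D x ∈ I ⊔ I' := by
  intro x hx
  obtain ⟨y, hy, z, hz, rfl⟩ := Submodule.mem_sup.1 hx
  rw [map_add]
  exact Submodule.add_mem_sup (h y hy) (h' z hz)

/-! ### kernels -/

theorem wS_split (X Z : Finset S) : wS θ Z = wS θ (Z ∩ X) + wS θ (Z \ X) :=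
  (Finset.sum_inter_add_sum_sdiff Z X θ).symm

/-- a kernel with positive weight on one of the parts -/
theorem KX_mem_sup {X Z : Finset S} (hX : X ⊆ B) (hZ : Z ⊆ B)
    (h : 0 < wS θ (Z ∩ X) ∨ 0 < wS θ (Z \ X)) :
    KX k a B Z ∈ J0 k a θ X ⊔ J0 k a θ (B \ X) := by
  rcases h with h | h
  · apply Ideal.mem_sup_left
    refine QP_mem_J0 (X := Z ∩ X) Finset.inter_subset_right h ?_
    apply product_subset_product Finset.inter_subset_left
    intro s hs
    simp only [Finset.mem_sdiff, Finset.mem_inter, not_and] at hs ⊢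
    exact ⟨hX hs.1, fun h2 => hs.2 h2 hs.1⟩
  · apply Ideal.mem_sup_right
    refine QP_mem_J0 (X := Z \ X) (Finset.sdiff_subset_sdiff hZ le_rfl) h ?_
    apply product_subset_product Finset.sdiff_subset
    intro s hs
    simp only [Finset.mem_sdiff, not_and, not_not] at hs ⊢
    exact ⟨hs.1.1, fun h2 => hs.1.2 (hs.2 h2)⟩

theorem KX_mem_sup2 {X Z : Finset S} (hZ : Z ⊆ B)
    (h : wS θ (Z \ X) = 0) (hne : (Z \ X).Nonempty) (h0 : s0 ∉ Z) :
    KX k a B Z ∈ J0 k a θ X ⊔ J2 k a θ s0 (B \ X) := by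
  apply Ideal.mem_sup_right
  refine Ideal.mem_of_dvd _ (QP_dvd (E := (Z \ X) ×ˢ ((B \ X) \ (Z \ X))) ?_)
    (Ideal.subset_span ⟨Z \ X, Finset.sdiff_subset_sdiff hZ le_rfl, Or.inr ⟨h, hne, ?_⟩, rfl⟩)
  · apply product_subset_product Finset.sdiff_subset
    intro s hs
    simp only [Finset.mem_sdiff, not_and, not_not] at hs ⊢
    exact ⟨hs.1.1, fun h2 => hs.1.2 (hs.2 h2)⟩
  · intro h1
    exact h0 (Finset.mem_sdiff.1 h1).1

theorem J0_le_sup {X : Finset S} (hX : X ⊆ B) :
    J0 k a θ B ≤ J0 k a θ X ⊔ J0 k a θ (B \ X) := by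
  apply Ideal.span_le.2
  rintro g ⟨Z, hZ, h, rfl⟩
  apply KX_mem_sup hX hZ
  rw [wS_split X Z] at h
  by_contra hc
  push Not at hc
  linarith [hc.1, hc.2]

/-- multiplication by `K_X` maps `J0 X ⊔ J2 (B \ X)` into the ideal of larger kernels -/
theorem KX_mul_mem {X : Finset S} (hX : X ⊆ B)
    (hXth : wS θ X = 0) {L : Ideal (MvPolynomial S k)} (hL : J0 k a θ B ≤ L)
    (hL2 : ∀ Z, Z ⊆ B → X ⊂ Z → wS θ Z = 0 → s0 ∉ Z → KX k a B Z ∈ L)
    (hs0 : s0 ∉ X) :
    ∀ g ∈ J0 k a θ X ⊔ J2 k a θ s0 (B \ X), KX k a B X * g ∈ L := by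
  have key : J0 k a θ X ⊔ J2 k a θ s0 (B \ X) ≤
      Submodule.comap (LinearMap.mulLeft (MvPolynomial S k) (KX k a B X)) L := by
    apply sup_le
    · apply Ideal.span_le.2
      rintro g ⟨Z, hZ, h, rfl⟩
      show KX k a B X * KX k a X Z ∈ L
      have h3 : KX k a B Z ∣ KX k a B X * KX k a X Z := by
        unfold KX
        rw [← QP_union]
        · apply QP_dvd
          rintro ⟨s, t⟩ hst
          rw [mem_product, mem_sdiff] at hst
          obtain ⟨h1, h2, h3⟩ := hst
          dsimp only at h1 h2 h3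
          rw [mem_union, mem_product, mem_sdiff, mem_product, mem_sdiff]
          by_cases h4 : t ∈ X
          · exact Or.inr ⟨h1, h4, h3⟩
          · exact Or.inl ⟨hZ h1, h2, h4⟩
        · rw [Finset.disjoint_left]
          rintro ⟨s, t⟩ hst hst'
          rw [mem_product, mem_sdiff] at hst hst'
          exact hst.2.2 hst'.2.1
      exact Ideal.mem_of_dvd _ h3 (hL (Ideal.subset_span ⟨Z, hZ.trans hX, h, rfl⟩))
    · apply Ideal.span_le.2
      rintro g ⟨Z, hZ, h, rfl⟩
      show KX k a B X * KX k a (B \ X) Z ∈ L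
      have hd : Disjoint X Z := by
        rw [Finset.disjoint_left]
        intro s hs hs'
        exact (Finset.mem_sdiff.1 (hZ hs')).2 hs
      have h3 : KX k a B (X ∪ Z) ∣ KX k a B X * KX k a (B \ X) Z := by
        unfold KX
        rw [← QP_union]
        · apply QP_dvd
          rintro ⟨s, t⟩ hst
          rw [mem_product, mem_union, mem_sdiff, mem_union, not_or] at hst
          obtain ⟨h1, h2, h3, h4⟩ := hst
          dsimp only at h1 h2 h3 h4
          rw [mem_union, mem_product, mem_sdiff, mem_product, mem_sdiff, mem_sdiff]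
          rcases h1 with h1 | h1
          · exact Or.inl ⟨h1, h2, h3⟩
          · exact Or.inr ⟨h1, ⟨h2, h3⟩, h4⟩
        · rw [Finset.disjoint_left]
          rintro ⟨s, t⟩ hst hst'
          rw [mem_product, mem_sdiff] at hst hst'
          exact Finset.disjoint_left.1 hd hst.1 hst'.1
      have hsub : X ∪ Z ⊆ B := Finset.union_subset hX (hZ.trans Finset.sdiff_subset)
      have hth : wS θ (X ∪ Z) = wS θ Z := by
        rw [wS_union hd, hXth, zero_add]
      rcases h with h | ⟨h, hne, h0⟩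
      · exact Ideal.mem_of_dvd _ h3 (hL (Ideal.subset_span ⟨X ∪ Z, hsub, by rw [hth]; exact h, rfl⟩))
      · refine Ideal.mem_of_dvd _ h3 (hL2 (X ∪ Z) hsub ?_ (by rw [hth]; exact h) ?_)
        · rw [Finset.ssubset_iff_subset_ne]
          refine ⟨Finset.subset_union_left, ?_⟩
          intro hc
          obtain ⟨s, hs⟩ := hne
          exact Finset.disjoint_left.1 hd (by rw [hc]; exact Finset.mem_union_right _ hs) hs
        · rw [Finset.mem_union, not_or]
          exact ⟨hs0, h0⟩
  intro g hg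
  exact key hg

/-- (2): an element of the framed ideal of small growth lies in `J0 B` -/
theorem mem_J0_of_growth [CharZero k] {f : MvPolynomial S k}
    (hgr : ∀ X, X ⊆ B → wS θ X = 0 → X.Nonempty → s0 ∉ X →
      ∀ m, ∑ p ∈ X ×ˢ (B \ X), a p.1 p.2 ≤ m →
        (dB (k := k) (B \ X))^[m] f ∈ J0 k a θ X ⊔ J0 k a θ (B \ X))
    (hf : f ∈ J2 k a θ s0 B) : f ∈ J0 k a θ B := by
  classical
  -- valid sets
  let Val : Finset (Finset S) :=
    B.powerset.filter fun X => wS θ X = 0 ∧ X.Nonempty ∧ s0 ∉ X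
  have hVal : ∀ X, X ∈ Val ↔ X ⊆ B ∧ wS θ X = 0 ∧ X.Nonempty ∧ s0 ∉ X := by
    intro X; simp only [Val, Finset.mem_filter, Finset.mem_powerset]
  have key : ∀ n : ℕ, ∀ 𝒳 : Finset (Finset S), 𝒳.card = n → 𝒳 ⊆ Val →
      (∀ X ∈ 𝒳, ∀ X' ∈ Val, X.card < X'.card → X' ∈ 𝒳) →
      f ∈ J0 k a θ B ⊔ Ideal.span ((fun X => KX k a B X) '' (𝒳 : Set (Finset S))) →
      f ∈ J0 k a θ B := by
    intro n
    induction n with
    | zero =>
      intro 𝒳 h0 _ _ hf
      rw [Finset.card_eq_zero] at h0
      subst h0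
      simpa using hf
    | succ n ih =>
      intro 𝒳 hc hsub hup hf
      have hne : 𝒳.Nonempty := by
        rw [← Finset.card_pos, hc]; omega
      obtain ⟨X, hX, hmin⟩ := Finset.exists_min_image 𝒳 Finset.card hne
      obtain ⟨hXB, hXth, hXne, hXs0⟩ := (hVal X).1 (hsub hX)
      refine ih (𝒳.erase X) (by rw [Finset.card_erase_of_mem hX, hc]; rfl)
        ((Finset.erase_subset _ _).trans hsub) ?_ ?_
      · intro X1 hX1 X' hX' hlt
        rw [Finset.mem_erase] at hX1 ⊢
        refine ⟨?_, hup X1 hX1.2 X' hX' hlt⟩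
        rintro rfl
        have := hmin X1 hX1.2
        omega
      · -- decomposition
        have hins : ((fun X => KX k a B X) '' (𝒳 : Set (Finset S))) =
            insert (KX k a B X)
              ((fun X => KX k a B X) '' ((𝒳.erase X : Finset (Finset S)) : Set (Finset S))) := by
          conv_lhs => rw [← Finset.insert_erase hX, Finset.coe_insert, Set.image_insert_eq]
        rw [hins, Ideal.span_insert] at hf
        obtain ⟨j, hj, y, hy, hjy⟩ := Submodule.mem_sup.1 hf
        obtain ⟨q, hq, h, hh, hkh⟩ := Submodule.mem_sup.1 hy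
        obtain ⟨g, rfl⟩ := Ideal.mem_span_singleton'.1 hq
        set I : Ideal (MvPolynomial S k) := J0 k a θ X ⊔ J2 k a θ s0 (B \ X) with hIdef
        have hIle : J0 k a θ X ⊔ J0 k a θ (B \ X) ≤ I := sup_le_sup le_rfl J0_le_J2
        have hjI : j ∈ I := hIle (J0_le_sup hXB hj)
        have hhI : h ∈ I := by
          refine Ideal.span_le.2 ?_ hh
          rintro _ ⟨X', hX', rfl⟩
          rw [Finset.mem_coe, Finset.mem_erase] at hX'
          obtain ⟨hX'B, hX'th, hX'ne, hX's0⟩ := (hVal X').1 (hsub hX'.2)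
          show KX k a B X' ∈ I
          rw [wS_split X X'] at hX'th
          by_cases hp : 0 < wS θ (X' ∩ X) ∨ 0 < wS θ (X' \ X)
          · exact hIle (KX_mem_sup hXB hX'B hp)
          · push Not at hp
            have e1 : wS θ (X' \ X) = 0 := by linarith [hp.1, hp.2]
            apply KX_mem_sup2 hX'B e1 _ hX's0
            by_contra hemp
            rw [Finset.not_nonempty_iff_eq_empty, Finset.sdiff_eq_empty_iff_subset] at hemp
            exact hX'.1 (Finset.eq_of_subset_of_card_le hemp (hmin X' hX'.2))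
        have hDI : ∀ x ∈ I, dB (B \ X) x ∈ I :=
          sup_stable (J0_stable (Or.inr Finset.disjoint_sdiff)) (J2_stable (Or.inl le_rfl))
        have hgI : g ∈ I := by
          by_contra hg
          obtain ⟨n, hn⟩ := exists_ord hg (dB_nilpotent (B \ X) g)
          have hn2 : Ord (dB (k := k) (B \ X)) I (n + ∑ p ∈ X ×ˢ (B \ X), a p.1 p.2)
              (KX k a B X * g) := by
            unfold KX QP
            refine Ord.prod_mul hDI (X ×ˢ (B \ X))
              (fun p : S × S => (MvPolynomial.X p.2 - MvPolynomial.X p.1 :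
                MvPolynomial S k)) (fun p => a p.1 p.2) hn ?_
            rintro ⟨s, t⟩ hst
            rw [mem_product] at hst
            have h1 : s ∉ B \ X := fun h => (Finset.mem_sdiff.1 h).2 hst.1
            simp only [map_sub, dB_X]
            rw [if_pos hst.2, if_neg h1, sub_zero]
          have hn3 : Ord (dB (k := k) (B \ X)) I (n + ∑ p ∈ X ×ˢ (B \ X), a p.1 p.2) f := by
            apply hn2.congr hDI
            have : f - KX k a B X * g = j + h := by
              rw [← hjy, ← hkh]; ring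
            rw [this]
            exact I.add_mem hjI hhI
          exact hn3.1 (hIle (hgr X hXB hXth hXne hXs0 _ (Nat.le_add_left _ _)))
        rw [← hjy]
        refine Ideal.add_mem _ (Ideal.mem_sup_left hj) ?_
        rw [← hkh]
        refine Ideal.add_mem _ ?_ (Ideal.mem_sup_right hh)
        rw [mul_comm]
        refine KX_mul_mem hXB hXth le_sup_left ?_ hXs0 g hgI
        intro Z hZB hXZ hZth hZs0
        apply Ideal.mem_sup_right
        apply Ideal.subset_span
        refine ⟨Z, ?_, rfl⟩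
        rw [Finset.mem_coe, Finset.mem_erase]
        refine ⟨(Finset.ssubset_iff_subset_ne.1 hXZ).2.symm, ?_⟩
        refine hup X hX Z ((hVal Z).2 ⟨hZB, hZth, ?_, hZs0⟩) (Finset.card_lt_card hXZ)
        exact hXne.mono hXZ.1
  refine key Val.card Val rfl le_rfl (fun _ _ X' hX' _ => hX') ?_
  refine Ideal.span_le.2 ?_ hf
  rintro g ⟨X, hX, h | ⟨h1, h2, h3⟩, rfl⟩
  · exact Ideal.mem_sup_left (Ideal.subset_span ⟨X, hX, h, rfl⟩)
  · exact Ideal.mem_sup_right (Ideal.subset_span ⟨X, (hVal X).2 ⟨hX, h1, h2, h3⟩, rfl⟩)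

/-- **FIN**, one block -/
theorem fin_block [CharZero k] (hs0 : s0 ∈ B) (hB : wS θ B = 0) :
    ∃ D0 : ℕ, ∀ (n : ℕ) (f : MvPolynomial S k), D0 ≤ n → f.IsHomogeneous n → f.vars ⊆ B →
      dB B f ∈ J0 k a θ B →
      (∀ X, X ⊆ B → wS θ X = 0 → X.Nonempty → s0 ∉ X →
        ∀ m, ∑ p ∈ X ×ˢ (B \ X), a p.1 p.2 ≤ m →
          (dB (k := k) (B \ X))^[m] f ∈ J0 k a θ X ⊔ J0 k a θ (B \ X)) →
      f ∈ J0 k a θ B := by
  obtain ⟨D0, h0⟩ := exists_bound (k := k) (a := a) hs0 hB
  exact ⟨D0, fun n f hn hf hv hd hgr => mem_J0_of_growth hgr (h0 n f hn hf hv (J0_le_J2 hd))⟩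

end

end Vale.Agent.P066.Lab.Fin678
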